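import Vale.Agent.P091.Bdl.B1
import Vale.Agent.P091.H690.Final

open MeasureTheory AddCircle

/-- Parts 1-4: the statement of `DivergenceSqrtLog` (everywhere divergence in `φ(L)` for
`φ(u) = o(u √(log u))`, its form along a sequence, the consequence for Orlicz classes of
convergence, and the lower bound for the weak type `(p, p)` constants).
Parts 5-7 (growth): `sup_N |S_N f(x)| / ψ(N) = ∞` at every `x`, for some `f` in `φ(L)` with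
spectrum in `k ≥ 1`. Part 5: `φ` nondecreasing without regularity, `ψ(N) = o(√(log N))` and
`ψ(N) sup_{1 ≤ u ≤ N} φ(u)/u = o(√(log N))`. Part 6: `φ(u)/u` nondecreasing and
`φ(m) ψ(m) = o(m √(log m))`. Part 7: `ψ(N) = o(√(log N))`, `f` integrable. -/
theorem Vale.Agent.Results.P091.KonyaginGrowth.result {T : ℝ} [Fact (0 < T)] :
    (∀ φ : ℝ → ℝ, (∀ u, 0 ≤ u → 0 ≤ φ u) → MonotoneOn φ (Set.Ici 0) →
      Filter.Tendsto (fun u => φ u / (u * Real.sqrt (Real.log u))) Filter.atTop (nhds 0) →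
      ∃ f : AddCircle T → ℂ, Integrable f haarAddCircle ∧
        Integrable (fun x => φ ‖f x‖) haarAddCircle ∧
        ∀ x : AddCircle T, ¬ BddAbove (Set.range fun N : ℕ =>
          ‖∑ k ∈ Finset.Icc (-(N : ℤ)) (N : ℤ), fourierCoeff f k * fourier k x‖)) ∧
    (∀ φ : ℝ → ℝ, (∀ u, 0 ≤ u → 0 ≤ φ u) → MonotoneOn φ (Set.Ici 0) →
      (∀ η : ℝ, 0 < η → ∀ V₀ : ℝ, ∃ V : ℝ, V₀ ≤ V ∧
        ∀ u, 1 ≤ u → u ≤ V → φ u ≤ η * (u * Real.sqrt (Real.log V))) →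
      ∃ f : AddCircle T → ℂ, Integrable f haarAddCircle ∧
        Integrable (fun x => φ ‖f x‖) haarAddCircle ∧
        ∀ x : AddCircle T, ¬ BddAbove (Set.range fun N : ℕ =>
          ‖∑ k ∈ Finset.Icc (-(N : ℤ)) (N : ℤ), fourierCoeff f k * fourier k x‖)) ∧
    (∀ φ : ℝ → ℝ, (∀ u, 0 ≤ u → 0 ≤ φ u) → MonotoneOn φ (Set.Ici 0) →
      MonotoneOn (fun u => φ u / u) (Set.Ioi 0) →
      (∀ f : AddCircle T → ℂ, Integrable f haarAddCircle →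
        Integrable (fun x => φ ‖f x‖) haarAddCircle →
        ∃ x : AddCircle T, BddAbove (Set.range fun N : ℕ =>
          ‖∑ k ∈ Finset.Icc (-(N : ℤ)) (N : ℤ), fourierCoeff f k * fourier k x‖)) →
      ∃ c : ℝ, 0 < c ∧ ∀ᶠ u in Filter.atTop, c * (u * Real.sqrt (Real.log u)) ≤ φ u) ∧
    (∃ c : ℝ, 0 < c ∧ ∀ p : ℝ, 1 < p → p ≤ 2 → ∀ C : ℝ, 0 ≤ C →
      (∀ f : AddCircle T → ℂ, Continuous f → ∀ t : ℝ, 0 < t →
        t ^ p * (haarAddCircle {x : AddCircle T | ∃ N : ℕ,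
          t < ‖∑ k ∈ Finset.Icc (-(N : ℤ)) (N : ℤ), fourierCoeff f k * fourier k x‖}).toReal ≤
        C ^ p * ∫ x, ‖f x‖ ^ p ∂haarAddCircle) →
      c / Real.sqrt (p - 1) ≤ C) ∧
    (∀ φ : ℝ → ℝ, (∀ u, 0 ≤ u → 0 ≤ φ u) → MonotoneOn φ (Set.Ici 0) →
      ∀ ψ : ℕ → ℝ, (∀ N, 0 < ψ N) →
      Filter.Tendsto (fun N : ℕ => ψ N / Real.sqrt (Real.log N)) Filter.atTop (nhds 0) →
      (∀ η : ℝ, 0 < η → ∀ᶠ N : ℕ in Filter.atTop, ∀ u : ℝ, 1 ≤ u → u ≤ N →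
        φ u * ψ N ≤ η * (u * Real.sqrt (Real.log N))) →
      ∃ f : AddCircle T → ℂ, Integrable f haarAddCircle ∧
        Integrable (fun x => φ ‖f x‖) haarAddCircle ∧
        (∀ k : ℤ, k ≤ 0 → fourierCoeff f k = 0) ∧
        ∀ x : AddCircle T, ¬ BddAbove (Set.range fun N : ℕ =>
          ‖∑ k ∈ Finset.Icc (-(N : ℤ)) (N : ℤ), fourierCoeff f k * fourier k x‖ / ψ N)) ∧
    (∀ φ : ℝ → ℝ, (∀ u, 0 ≤ u → 0 ≤ φ u) → MonotoneOn φ (Set.Ici 0) →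
      MonotoneOn (fun u => φ u / u) (Set.Ioi 0) → (∃ u, 0 < u ∧ 0 < φ u) →
      ∀ ψ : ℕ → ℝ, (∀ N, 0 < ψ N) →
      Filter.Tendsto (fun m : ℕ => φ m * ψ m / (m * Real.sqrt (Real.log m)))
        Filter.atTop (nhds 0) →
      ∃ f : AddCircle T → ℂ, Integrable f haarAddCircle ∧
        Integrable (fun x => φ ‖f x‖) haarAddCircle ∧
        (∀ k : ℤ, k ≤ 0 → fourierCoeff f k = 0) ∧
        ∀ x : AddCircle T, ¬ BddAbove (Set.range fun N : ℕ =>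
          ‖∑ k ∈ Finset.Icc (-(N : ℤ)) (N : ℤ), fourierCoeff f k * fourier k x‖ / ψ N)) ∧
    (∀ ψ : ℕ → ℝ, (∀ N, 0 < ψ N) →
      Filter.Tendsto (fun N : ℕ => ψ N / Real.sqrt (Real.log N)) Filter.atTop (nhds 0) →
      ∃ f : AddCircle T → ℂ, Integrable f haarAddCircle ∧
        (∀ k : ℤ, k ≤ 0 → fourierCoeff f k = 0) ∧
        ∀ x : AddCircle T, ¬ BddAbove (Set.range fun N : ℕ =>
          ‖∑ k ∈ Finset.Icc (-(N : ℤ)) (N : ℤ), fourierCoeff f k * fourier k x‖ / ψ N)) :=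
  ⟨Vale.Agent.P091.divergence_little_o, Vale.Agent.P091.divergence_liminf,
    Vale.Agent.P091.orlicz_converse, Vale.Agent.P091.weak_type_lower,
    Vale.Agent.P091.growth_gen, Vale.Agent.P091.growth_konyagin, Vale.Agent.P091.growth_pure⟩
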