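import Vale.Agent.P091.Bdl.B1
import Vale.Agent.P091.H690.Final
import Vale.Agent.P091.H690b.Restricted
import Vale.Agent.P091.H690b.Lorentz

open MeasureTheory AddCircle

/-- Parts 1-4: everywhere divergence in `φ(L)` for `φ(u) = o(u √(log u))`, its form along a
sequence, the consequence for Orlicz classes of convergence, and the lower bound for the weak
type `(p, p)` constants.
Parts 5-7 (growth): `sup_N |S_N f(x)| / ψ(N) = ∞` at every `x`, for some `f` in `φ(L)` with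
spectrum in `k ≥ 1`. Part 5: `φ` nondecreasing without regularity, `ψ(N) = o(√(log N))` and
`ψ(N) sup_{1 ≤ u ≤ N} φ(u)/u = o(√(log N))`. Part 6: `φ(u)/u` nondecreasing and
`φ(m) ψ(m) = o(m √(log m))`. Part 7: `ψ(N) = o(√(log N))`, `f` integrable.
Part 8: if `ψ(N) = o(√(log N))`, quasi-every `f` in `L^1` has `sup_N |S_N f(x)| / ψ(N) = ∞` at
every `x`.
Part 9 (sets): for small `t` there is a set `E` of measure at most `t` such that at every `x` some
partial sum of the indicator of `E` is larger than `c t √(log (1/t))`.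
Part 10: the lower bound for the restricted weak type `(p, p)` constants (indicators of sets).
Part 11: if `X` is a Baire topological vector space with a continuous linear map `J` into `L^1`
and the partial sums of every `J g` are bounded on a set of positive measure, then for every
bounded `B` in `X` there are sets `E` of measure at most `t` with `1_E / (c t √(log (1/t)))`
outside `J(B)`, for all small `t`.
Part 12: if the elements with uniformly bounded partial sums are dense in `X` and the conclusion of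
Part 11 fails for every constant, then quasi-every `g` in `X` has unbounded partial sums at every
`x`.
Part 13 (Lorentz classes): if `φ` is nonnegative, nondecreasing, subadditive and
`liminf φ(t) / (t √(log (1/t))) = 0` at `0`, there is `f` with spectrum in `k ≥ 1` and
`∫_0^∞ φ(μ{|f| > s}) ds < ∞` whose partial sums are unbounded at every `x`. -/
theorem Vale.Agent.Results.P091.SpacesOfConvergence.result {T : ℝ} [Fact (0 < T)] :
    (∀ φ : ℝ → ℝ, (∀ u, 0 ≤ u → 0 ≤ φ u) → MonotoneOn φ (Set.Ici 0) →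
      Filter.Tendsto (fun u => φ u / (u * Real.sqrt (Real.log u))) Filter.atTop (nhds 0) →
      ∃ f : AddCircle T → ℂ, Integrable f haarAddCircle ∧
        Integrable (fun x => φ ‖f x‖) haarAddCircle ∧
        ∀ x : AddCircle T, ¬ BddAbove (Set.range fun N : ℕ =>
          ‖∑ k ∈ Finset.Icc (-(N : ℤ)) (N : ℤ), fourierCoeff f k * fourier k x‖)) ∧
    (∀ φ : ℝ → ℝ, (∀ u, 0 ≤ u → 0 ≤ φ u) → MonotoneOn φ (Set.Ici 0) →
      (∀ η : ℝ, 0 < η → ∀ V₀ : ℝ, ∃ V : ℝ, V₀ ≤ V ∧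
        ∀ u, 1 ≤ u → u ≤ V → φ u ≤ η * (u * Real.sqrt (Real.log V))) →
      ∃ f : AddCircle T → ℂ, Integrable f haarAddCircle ∧
        Integrable (fun x => φ ‖f x‖) haarAddCircle ∧
        ∀ x : AddCircle T, ¬ BddAbove (Set.range fun N : ℕ =>
          ‖∑ k ∈ Finset.Icc (-(N : ℤ)) (N : ℤ), fourierCoeff f k * fourier k x‖)) ∧
    (∀ φ : ℝ → ℝ, (∀ u, 0 ≤ u → 0 ≤ φ u) → MonotoneOn φ (Set.Ici 0) →
      MonotoneOn (fun u => φ u / u) (Set.Ioi 0) →
      (∀ f : AddCircle T → ℂ, Integrable f haarAddCircle →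
        Integrable (fun x => φ ‖f x‖) haarAddCircle →
        ∃ x : AddCircle T, BddAbove (Set.range fun N : ℕ =>
          ‖∑ k ∈ Finset.Icc (-(N : ℤ)) (N : ℤ), fourierCoeff f k * fourier k x‖)) →
      ∃ c : ℝ, 0 < c ∧ ∀ᶠ u in Filter.atTop, c * (u * Real.sqrt (Real.log u)) ≤ φ u) ∧
    (∃ c : ℝ, 0 < c ∧ ∀ p : ℝ, 1 < p → p ≤ 2 → ∀ C : ℝ, 0 ≤ C →
      (∀ f : AddCircle T → ℂ, Continuous f → ∀ t : ℝ, 0 < t →
        t ^ p * (haarAddCircle {x : AddCircle T | ∃ N : ℕ,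
          t < ‖∑ k ∈ Finset.Icc (-(N : ℤ)) (N : ℤ), fourierCoeff f k * fourier k x‖}).toReal ≤
        C ^ p * ∫ x, ‖f x‖ ^ p ∂haarAddCircle) →
      c / Real.sqrt (p - 1) ≤ C) ∧
    (∀ φ : ℝ → ℝ, (∀ u, 0 ≤ u → 0 ≤ φ u) → MonotoneOn φ (Set.Ici 0) →
      ∀ ψ : ℕ → ℝ, (∀ N, 0 < ψ N) →
      Filter.Tendsto (fun N : ℕ => ψ N / Real.sqrt (Real.log N)) Filter.atTop (nhds 0) →
      (∀ η : ℝ, 0 < η → ∀ᶠ N : ℕ in Filter.atTop, ∀ u : ℝ, 1 ≤ u → u ≤ N →
        φ u * ψ N ≤ η * (u * Real.sqrt (Real.log N))) →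
      ∃ f : AddCircle T → ℂ, Integrable f haarAddCircle ∧
        Integrable (fun x => φ ‖f x‖) haarAddCircle ∧
        (∀ k : ℤ, k ≤ 0 → fourierCoeff f k = 0) ∧
        ∀ x : AddCircle T, ¬ BddAbove (Set.range fun N : ℕ =>
          ‖∑ k ∈ Finset.Icc (-(N : ℤ)) (N : ℤ), fourierCoeff f k * fourier k x‖ / ψ N)) ∧
    (∀ φ : ℝ → ℝ, (∀ u, 0 ≤ u → 0 ≤ φ u) → MonotoneOn φ (Set.Ici 0) →
      MonotoneOn (fun u => φ u / u) (Set.Ioi 0) → (∃ u, 0 < u ∧ 0 < φ u) →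
      ∀ ψ : ℕ → ℝ, (∀ N, 0 < ψ N) →
      Filter.Tendsto (fun m : ℕ => φ m * ψ m / (m * Real.sqrt (Real.log m)))
        Filter.atTop (nhds 0) →
      ∃ f : AddCircle T → ℂ, Integrable f haarAddCircle ∧
        Integrable (fun x => φ ‖f x‖) haarAddCircle ∧
        (∀ k : ℤ, k ≤ 0 → fourierCoeff f k = 0) ∧
        ∀ x : AddCircle T, ¬ BddAbove (Set.range fun N : ℕ =>
          ‖∑ k ∈ Finset.Icc (-(N : ℤ)) (N : ℤ), fourierCoeff f k * fourier k x‖ / ψ N)) ∧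
    (∀ ψ : ℕ → ℝ, (∀ N, 0 < ψ N) →
      Filter.Tendsto (fun N : ℕ => ψ N / Real.sqrt (Real.log N)) Filter.atTop (nhds 0) →
      ∃ f : AddCircle T → ℂ, Integrable f haarAddCircle ∧
        (∀ k : ℤ, k ≤ 0 → fourierCoeff f k = 0) ∧
        ∀ x : AddCircle T, ¬ BddAbove (Set.range fun N : ℕ =>
          ‖∑ k ∈ Finset.Icc (-(N : ℤ)) (N : ℤ), fourierCoeff f k * fourier k x‖ / ψ N)) ∧
    (∀ ψ : ℕ → ℝ, (∀ N, 0 < ψ N) →
      Filter.Tendsto (fun N : ℕ => ψ N / Real.sqrt (Real.log N)) Filter.atTop (nhds 0) →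
      {f : Lp ℂ 1 (haarAddCircle (T := T)) | ∀ x : AddCircle T,
        ¬ BddAbove (Set.range fun N : ℕ => ‖∑ k ∈ Finset.Icc (-(N : ℤ)) (N : ℤ),
          fourierCoeff (f : AddCircle T → ℂ) k * fourier k x‖ / ψ N)} ∈
        residual (Lp ℂ 1 (haarAddCircle (T := T)))) ∧
    (∃ c : ℝ, 0 < c ∧ ∃ t₀ : ℝ, 0 < t₀ ∧ ∀ t : ℝ, 0 < t → t < t₀ →
      ∃ E : Set (AddCircle T), MeasurableSet E ∧ haarAddCircle E ≤ ENNReal.ofReal t ∧
        ∀ x : AddCircle T, ∃ N : ℕ, c * (t * Real.sqrt (Real.log (1 / t))) <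
          ‖∑ k ∈ Finset.Icc (-(N : ℤ)) (N : ℤ),
            fourierCoeff (E.indicator fun _ => (1 : ℂ)) k * fourier k x‖) ∧
    (∃ c : ℝ, 0 < c ∧ ∀ p : ℝ, 1 < p → p ≤ 2 → ∀ C : ℝ, 0 ≤ C →
      (∀ E : Set (AddCircle T), MeasurableSet E → ∀ y : ℝ, 0 < y →
        y ^ p * (haarAddCircle {x : AddCircle T | ∃ N : ℕ,
          y < ‖∑ k ∈ Finset.Icc (-(N : ℤ)) (N : ℤ),
            fourierCoeff (E.indicator fun _ => (1 : ℂ)) k * fourier k x‖}).toReal ≤
        C ^ p * (haarAddCircle E).toReal) →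
      c / Real.sqrt (p - 1) ≤ C) ∧
    (∀ (X : Type) [AddCommGroup X] [Module ℂ X] [TopologicalSpace X]
      [IsTopologicalAddGroup X] [ContinuousSMul ℂ X] [BaireSpace X]
      (J : X →L[ℂ] Lp ℂ 1 (haarAddCircle (T := T))) (B : Set X), Bornology.IsVonNBounded ℂ B →
      (∀ g : X, haarAddCircle {x : AddCircle T | BddAbove (Set.range fun N : ℕ =>
        ‖∑ k ∈ Finset.Icc (-(N : ℤ)) (N : ℤ),
          fourierCoeff (J g : AddCircle T → ℂ) k * fourier k x‖)} ≠ 0) →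
      ∃ c : ℝ, 0 < c ∧ ∃ t₀ : ℝ, 0 < t₀ ∧ ∀ t : ℝ, 0 < t → t < t₀ →
        ∃ E : Set (AddCircle T), MeasurableSet E ∧ haarAddCircle E ≤ ENNReal.ofReal t ∧
          ∀ b ∈ B, ¬ ((J b : AddCircle T → ℂ) =ᵐ[haarAddCircle]
            E.indicator fun _ => ((1 / (c * (t * Real.sqrt (Real.log (1 / t)))) : ℝ) : ℂ))) ∧
    (∀ (X : Type) [AddCommGroup X] [Module ℂ X] [TopologicalSpace X]
      [IsTopologicalAddGroup X] [ContinuousSMul ℂ X]
      (J : X →L[ℂ] Lp ℂ 1 (haarAddCircle (T := T))) (B : Set X), Bornology.IsVonNBounded ℂ B →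
      Dense {g : X | ∃ C : ℝ, ∀ (N : ℕ) (x : AddCircle T),
        ‖∑ k ∈ Finset.Icc (-(N : ℤ)) (N : ℤ),
          fourierCoeff (J g : AddCircle T → ℂ) k * fourier k x‖ ≤ C} →
      (∀ η : ℝ, 0 < η → ∀ t₀ : ℝ, 0 < t₀ → ∃ t : ℝ, 0 < t ∧ t < t₀ ∧
        ∀ E : Set (AddCircle T), MeasurableSet E → haarAddCircle E ≤ ENNReal.ofReal t →
        ∃ b ∈ B, (J b : AddCircle T → ℂ) =ᵐ[haarAddCircle]
          E.indicator fun _ => ((1 / (η * (t * Real.sqrt (Real.log (1 / t)))) : ℝ) : ℂ)) →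
      {g : X | ∀ x : AddCircle T, ¬ BddAbove (Set.range fun N : ℕ =>
        ‖∑ k ∈ Finset.Icc (-(N : ℤ)) (N : ℤ),
          fourierCoeff (J g : AddCircle T → ℂ) k * fourier k x‖)} ∈ residual X) ∧
    (∀ φ : ℝ → ℝ, (∀ t, 0 ≤ t → 0 ≤ φ t) → MonotoneOn φ (Set.Ici 0) →
      (∀ s t, 0 ≤ s → 0 ≤ t → φ (s + t) ≤ φ s + φ t) →
      (∀ η : ℝ, 0 < η → ∀ t₀ : ℝ, 0 < t₀ → ∃ t : ℝ, 0 < t ∧ t < t₀ ∧
        φ t ≤ η * (t * Real.sqrt (Real.log (1 / t)))) →
      ∃ f : AddCircle T → ℂ, Integrable f haarAddCircle ∧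
        IntegrableOn (fun s : ℝ => φ (haarAddCircle {x : AddCircle T | s < ‖f x‖}).toReal)
          (Set.Ioi 0) ∧
        (∀ k : ℤ, k ≤ 0 → fourierCoeff f k = 0) ∧
        ∀ x : AddCircle T, ¬ BddAbove (Set.range fun N : ℕ =>
          ‖∑ k ∈ Finset.Icc (-(N : ℤ)) (N : ℤ), fourierCoeff f k * fourier k x‖)) :=
  ⟨Vale.Agent.P091.divergence_little_o, Vale.Agent.P091.divergence_liminf,
    Vale.Agent.P091.orlicz_converse, Vale.Agent.P091.weak_type_lower,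
    Vale.Agent.P091.growth_gen, Vale.Agent.P091.growth_konyagin, Vale.Agent.P091.growth_pure,
    Vale.Agent.P091.generic_growth_pos, Vale.Agent.P091.exists_set_every,
    Vale.Agent.P091.restricted_lower,
    fun _ => Vale.Agent.P091.necessary_sets, fun _ => Vale.Agent.P091.generic_sets,
    Vale.Agent.P091.lorentz_divergence⟩
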